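import Vale.Agent.P235.H105.PlaneCycle
import Vale.Agent.P235.H536.FaceCross
import Vale.Agent.P235.R2.H582.Cap
import Vale.Agent.P235.H427.PK
import Vale.Agent.P235.H141.Decap

set_option autoImplicit false

/-!
# A clique with at most three vertices which does not separate a plane graph lies on a face
(helper830, K5 row W-FACE)
-/

namespace Vale.Agent.P235.K5.H830

open SimpleGraph Vale.Agent.P235 Vale.Agent.P235.H134 Vale.Agent.P235.H56
open Vale.Agent.P235.H341W (capG)

variable {V : Type} {G : SimpleGraph V}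

theorem const_same {α β : Type} {f : Equiv.Perm α} {c : α → β} (h : ∀ x, c (f x) = c x) {x y : α}
    (hxy : f.SameCycle x y) : c x = c y := by
  obtain ⟨n, rfl⟩ := hxy
  have key : ∀ (n : ℤ) (x : α), c ((f ^ n) x) = c x := by
    intro n
    induction n using Int.induction_on with
    | zero => intro x; rfl
    | succ n ih => intro x; rw [zpow_add_one, Equiv.Perm.mul_apply, ih, h]
    | pred n ih =>
      intro x
      have h3 := h (f⁻¹ x)
      rw [show f (f⁻¹ x) = x from Equiv.apply_symm_apply _ _] at h3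
      rw [zpow_sub_one, Equiv.Perm.mul_apply, ih, ← h3]
  exact (key n x).symm

/-- the indicator of the edges of a triangle is even at every vertex -/
theorem tri_even [Fintype G.Dart] [DecidableEq V] [DecidableEq G.Dart] {a b c : V}
    (hab : G.Adj a b) (hbc : G.Adj b c) (hca : G.Adj c a) (z : G.Dart → ZMod 2)
    (hz1 : ∀ d : G.Dart, d.fst ∈ ({a, b, c} : Set V) → d.snd ∈ ({a, b, c} : Set V) → z d = 1)
    (hz0 : ∀ d : G.Dart, ¬ (d.fst ∈ ({a, b, c} : Set V) ∧ d.snd ∈ ({a, b, c} : Set V)) → z d = 0)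
    (v : V) : ∑ d : G.Dart with d.fst = v, z d = 0 := by
  set L : List G.Dart := (Walk.cons hab (Walk.cons hbc (Walk.cons hca Walk.nil))).darts with hL
  have hLe : L = [⟨(a, b), hab⟩, ⟨(b, c), hbc⟩, ⟨(c, a), hca⟩] := by simp [hL]
  have hzc : ∀ d : G.Dart, z d = H536.cnt L d + H536.cnt L d.symm := by
    intro d
    by_cases h : d.fst ∈ ({a, b, c} : Set V) ∧ d.snd ∈ ({a, b, c} : Set V)
    · rw [hz1 d h.1 h.2]
      obtain ⟨⟨x, y⟩, hxy⟩ := d
      have n1 := hab.ne
      have n2 := hbc.ne
      have n3 := hca.ne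
      have hne := hxy.ne
      rcases h with ⟨hx, hy⟩
      simp only [Set.mem_insert_iff, Set.mem_singleton_iff] at hx hy
      rcases hx with rfl | rfl | rfl <;> rcases hy with rfl | rfl | rfl <;>
        first
          | exact absurd rfl hne
          | simp [hLe, H536.cnt, Dart.ext_iff, n1, n2, n3, n1.symm, n2.symm, n3.symm]
    · rw [hz0 d h, H536.cnt_zero, H536.cnt_zero, add_zero]
      · intro hd
        apply h
        rw [hLe] at hd
        simp only [List.mem_cons, List.not_mem_nil, or_false] at hd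
        rcases hd with hd | hd | hd
        · have e1 : d.snd = a := congrArg (fun e : G.Dart => e.fst) hd
          have e2 : d.fst = b := congrArg (fun e : G.Dart => e.snd) hd
          rw [e1, e2]; simp
        · have e1 : d.snd = b := congrArg (fun e : G.Dart => e.fst) hd
          have e2 : d.fst = c := congrArg (fun e : G.Dart => e.snd) hd
          rw [e1, e2]; simp
        · have e1 : d.snd = c := congrArg (fun e : G.Dart => e.fst) hd
          have e2 : d.fst = a := congrArg (fun e : G.Dart => e.snd) hd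
          rw [e1, e2]; simp
      · intro hd
        apply h
        rw [hLe] at hd
        simp only [List.mem_cons, List.not_mem_nil, or_false] at hd
        rcases hd with rfl | rfl | rfl <;> simp
  rw [Finset.sum_filter]
  rw [Finset.sum_congr rfl fun d _ => by rw [hzc d], H536.sum_cnt, hL, H536.walk_boundary]
  exact CharTwo.add_self_eq_zero _

/-- **A triangle of a plane map which does not separate the graph is a face.** -/
theorem tri_face [Finite V] (hc : G.Connected) {σ : Equiv.Perm G.Dart} (hσ : PlaneMap G σ)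
    {a b c : V} (hab : G.Adj a b) (hbc : G.Adj b c) (hca : G.Adj c a)
    (hS : (G.induce (({a, b, c} : Set V)ᶜ)).Preconnected) :
    ∃ d : G.Dart, ({a, b, c} : Set V) ⊆ onFace σ d := by
  classical
  have := Fintype.ofFinite V
  set S : Set V := {a, b, c} with hSdef
  set z : G.Dart → ZMod 2 := fun d => if d.fst ∈ S ∧ d.snd ∈ S then 1 else 0 with hz
  have hz1 : ∀ d : G.Dart, d.fst ∈ S → d.snd ∈ S → z d = 1 := fun d h1 h2 => if_pos ⟨h1, h2⟩
  have hz0 : ∀ d : G.Dart, ¬ (d.fst ∈ S ∧ d.snd ∈ S) → z d = 0 := fun d h => if_neg h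
  have hzs : ∀ d : G.Dart, z d.symm = z d := by
    intro d
    by_cases h : d.fst ∈ S ∧ d.snd ∈ S
    · rw [hz1 d h.1 h.2, hz1 d.symm h.2 h.1]
    · rw [hz0 d h, hz0 d.symm fun h' => h ⟨h'.2, h'.1⟩]
  obtain ⟨u, hu, huz⟩ := plane_cycle' hc hσ z hzs (tri_even hab hbc hca z hz1 hz0)
  have hus : ∀ d : G.Dart, ¬ (d.fst ∈ S ∧ d.snd ∈ S) → u d.symm = u d := by
    intro d h
    have h1 := huz d
    rw [hz0 d h] at h1
    exact (CharTwo.add_eq_zero.1 h1.symm).symm
  have huσ : ∀ d : G.Dart, d.fst ∉ S → u (σ d) = u d := by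
    intro d h
    have h1 := hu d.symm
    rw [faceNext_apply, Dart.symm_symm] at h1
    rw [h1, hus d fun h' => h h'.1]
  have hv : ∀ d e : G.Dart, d.fst = e.fst → d.fst ∉ S → u d = u e := by
    intro d e hde hd
    have h1 : (fun d : G.Dart => if d.fst ∈ S then (0 : ZMod 2) else u d) d =
        (fun d : G.Dart => if d.fst ∈ S then (0 : ZMod 2) else u d) e := by
      refine const_same (f := σ) (c := fun d : G.Dart => if d.fst ∈ S then (0 : ZMod 2) else u d)
        (fun x => ?_) (hσ.cyc d e hde)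
      show (if (σ x).fst ∈ S then (0 : ZMod 2) else u (σ x)) = if x.fst ∈ S then 0 else u x
      rw [hσ.fst]
      by_cases hx : x.fst ∈ S
      · rw [if_pos hx, if_pos hx]
      · rw [if_neg hx, if_neg hx, huσ x hx]
    simpa [hd, ← hde] using h1
  -- all darts outside of the triangle have one value
  have hκ : ∃ κ : ZMod 2, ∀ d : G.Dart, ¬ (d.fst ∈ S ∧ d.snd ∈ S) → u d = κ := by
    by_cases he : ∃ e : G.Dart, e.fst ∉ S
    · obtain ⟨e, he⟩ := he
      have key : ∀ (x y : (Sᶜ : Set V)), (G.induce (Sᶜ : Set V)).Walk x y →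
          (∀ d : G.Dart, d.fst = x.1 → u d = u e) → ∀ d : G.Dart, d.fst = y.1 → u d = u e := by
        intro x y p
        induction p with
        | nil => exact id
        | @cons x y w hxy p ih =>
          intro h
          refine ih fun d hd => ?_
          have hadj : G.Adj x.1 y.1 := hxy
          have h1 := h ⟨(x.1, y.1), hadj⟩ rfl
          have h2 := hus ⟨(x.1, y.1), hadj⟩ fun h' => x.2 h'.1
          rw [← h1, ← h2]
          refine hv d _ hd fun h' => y.2 ?_
          rw [← hd]
          exact h'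
      have key2 : ∀ d : G.Dart, d.fst ∉ S → u d = u e := by
        intro d hd
        obtain ⟨p⟩ := hS ⟨e.fst, he⟩ ⟨d.fst, hd⟩
        exact key _ _ p (fun d' hd' => hv d' e hd' (by rw [hd']; exact he)) d rfl
      refine ⟨u e, fun d hd => ?_⟩
      by_cases h1 : d.fst ∈ S
      · rw [← hus d hd]
        exact key2 d.symm fun h2 => hd ⟨h1, h2⟩
      · exact key2 d h1
    · push Not at he
      exact ⟨0, fun d hd => absurd ⟨he d, he d.symm⟩ hd⟩
  obtain ⟨κ, hκ⟩ := hκ
  have haS : a ∈ S := by simp [hSdef]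
  have hbS : b ∈ S := by simp [hSdef]
  have hex : ∃ d : G.Dart, u d ≠ κ := by
    by_contra hne
    push Not at hne
    have h1 := huz ⟨(a, b), hab⟩
    rw [hne, hne, CharTwo.add_self_eq_zero, hz1 ⟨(a, b), hab⟩ haS hbS] at h1
    exact one_ne_zero h1
  obtain ⟨d, hd⟩ := hex
  have hin : ∀ e : G.Dart, u e ≠ κ → e.fst ∈ S ∧ e.snd ∈ S := by
    intro e he
    by_contra h
    exact he (hκ e h)
  have hnext : ∀ e : G.Dart, u e ≠ κ → u (faceNext σ e) ≠ κ ∧ (faceNext σ e).fst = e.snd ∧
      (faceNext σ e).snd ≠ e.fst := by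
    intro e he
    have h1 : (faceNext σ e).fst = e.snd := H536.faceNext_fst hσ e
    refine ⟨by rw [hu]; exact he, h1, fun h2 => ?_⟩
    have h3 : faceNext σ e = e.symm := Dart.ext _ _ (Prod.ext h1 h2)
    have h4 := huz e
    rw [hz1 e (hin e he).1 (hin e he).2, ← h3, hu, CharTwo.add_self_eq_zero] at h4
    exact one_ne_zero h4
  obtain ⟨g1, g2, g3⟩ := hnext d hd
  obtain ⟨k1, k2, k3⟩ := hnext _ g1
  refine ⟨d, ?_⟩
  have hsub : ({d.fst, d.snd, (faceNext σ d).snd} : Set V) ⊆ S := by
    intro x hx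
    simp only [Set.mem_insert_iff, Set.mem_singleton_iff] at hx
    rcases hx with rfl | rfl | rfl
    · exact (hin d hd).1
    · exact (hin d hd).2
    · exact (hin _ g1).2
  have n1 : d.fst ≠ d.snd := d.adj.ne
  have n2 : d.fst ≠ (faceNext σ d).snd := g3.symm
  have n3 : d.snd ≠ (faceNext σ d).snd := by
    rw [← g2]
    exact (faceNext σ d).adj.ne
  have hS3 : S.ncard ≤ ({d.fst, d.snd, (faceNext σ d).snd} : Set V).ncard := by
    rw [Set.ncard_eq_three.2 ⟨_, _, _, n1, n2, n3, rfl⟩,
      Set.ncard_eq_three.2 ⟨a, b, c, hab.ne, hca.ne.symm, hbc.ne, rfl⟩]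
  have hSe := Set.eq_of_subset_of_ncard_le hsub hS3 (Set.toFinite S)
  rw [← hSe]
  intro x hx
  simp only [Set.mem_insert_iff, Set.mem_singleton_iff] at hx
  rcases hx with rfl | rfl | rfl
  · exact ⟨d, Equiv.Perm.SameCycle.refl _ _, rfl⟩
  · exact ⟨faceNext σ d, Equiv.Perm.sameCycle_apply_right.2 (Equiv.Perm.SameCycle.refl _ _), g2⟩
  · exact ⟨faceNext σ (faceNext σ d), Equiv.Perm.sameCycle_apply_right.2
      (Equiv.Perm.sameCycle_apply_right.2 (Equiv.Perm.SameCycle.refl _ _)), k2⟩

/-- a plane map has a dart at every vertex -/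
theorem exists_nb [Finite V] (hc : G.Connected) {σ : Equiv.Perm G.Dart} (hσ : PlaneMap G σ)
    (v : V) : ∃ w, G.Adj v w := by
  classical
  have hd : Nonempty G.Dart := by
    by_contra hne
    rw [not_nonempty_iff] at hne
    have he : IsEmpty G.edgeSet := ⟨fun e => by
      obtain ⟨d, _⟩ := exists_dart e
      exact hne.false d⟩
    have h1 := hσ.euler
    have h2 : IsEmpty (Quotient (Equiv.Perm.SameCycle.setoid (faceNext σ))) :=
      ⟨fun q => Quotient.inductionOn q fun d => hne.false d⟩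
    rw [Nat.card_of_isEmpty (α := Quotient (Equiv.Perm.SameCycle.setoid (faceNext σ))),
      Nat.card_of_isEmpty (α := G.edgeSet)] at h1
    have : Nontrivial V := Finite.one_lt_card_iff_nontrivial.1 (by omega)
    obtain ⟨x, y, hxy⟩ := exists_pair_ne V
    obtain ⟨p⟩ := hc.preconnected x y
    cases p with
    | nil => exact hxy rfl
    | @cons _ w _ h _ => exact hne.false ⟨(x, w), h⟩
  obtain ⟨e⟩ := hd
  by_cases h : v = e.fst
  · exact ⟨e.snd, by rw [h]; exact e.adj⟩
  · obtain ⟨p⟩ := hc.preconnected v e.fst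
    cases p with
    | nil => exact absurd rfl h
    | cons h' _ => exact ⟨_, h'⟩

/-- A clique with at most three vertices lies on a face, if it has less than three vertices or
does not separate the graph. -/
theorem clique_face [Finite V] (hc : G.Connected) {σ : Equiv.Perm G.Dart} (hσ : PlaneMap G σ)
    {S : Set V} (hcard : S.ncard ≤ 3) (hcl : ∀ u ∈ S, ∀ v ∈ S, u ≠ v → G.Adj u v)
    (hS : S.ncard = 3 → (G.induce Sᶜ).Preconnected) : ∃ d : G.Dart, S ⊆ onFace σ d := by
  have h0 : S.ncard = 0 ∨ S.ncard = 1 ∨ S.ncard = 2 ∨ S.ncard = 3 := by omega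
  rcases h0 with h | h | h | h
  · rw [Set.ncard_eq_zero (Set.toFinite S)] at h
    subst h
    obtain ⟨v⟩ := hc.nonempty
    obtain ⟨w, hw⟩ := exists_nb hc hσ v
    exact ⟨⟨(v, w), hw⟩, Set.empty_subset _⟩
  · obtain ⟨v, rfl⟩ := Set.ncard_eq_one.1 h
    obtain ⟨w, hw⟩ := exists_nb hc hσ v
    refine ⟨⟨(v, w), hw⟩, ?_⟩
    rintro x rfl
    exact ⟨_, Equiv.Perm.SameCycle.refl _ _, rfl⟩
  · obtain ⟨a, b, hab, rfl⟩ := Set.ncard_eq_two.1 h
    have hadj : G.Adj a b := hcl a (by simp) b (by simp) hab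
    refine ⟨⟨(a, b), hadj⟩, ?_⟩
    intro x hx
    simp only [Set.mem_insert_iff, Set.mem_singleton_iff] at hx
    rcases hx with rfl | rfl
    · exact ⟨_, Equiv.Perm.SameCycle.refl _ _, rfl⟩
    · exact ⟨faceNext σ ⟨(a, x), hadj⟩,
        Equiv.Perm.sameCycle_apply_right.2 (Equiv.Perm.SameCycle.refl _ _),
        H536.faceNext_fst hσ _⟩
  · obtain ⟨a, b, c, hab, hac, hbc, rfl⟩ := Set.ncard_eq_three.1 h
    exact tri_face hc hσ (hcl a (by simp) b (by simp) hab) (hcl b (by simp) c (by simp) hbc)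
      (hcl c (by simp) a (by simp) hac.symm) (hS h)

theorem isMinor_mono' {W : Type} {H : SimpleGraph W} {G G' : SimpleGraph V} (hle : G ≤ G')
    (h : IsMinor H G) : IsMinor H G' := by
  obtain ⟨μ, h1, h2, h3⟩ := h
  refine ⟨μ, fun a => ?_, h2, fun a b hab => ?_⟩
  · exact (h1 a).mono (by
      intro x y hxy
      exact hle hxy)
  · obtain ⟨x, hx, y, hy, hxy⟩ := h3 a b hab
    exact ⟨x, hx, y, hy, hle hxy⟩

theorem capG_mono {S T : Set V} (h : S ⊆ T) : capG G S ≤ capG G T := by
  rintro (_ | x) (_ | y) hxy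
  · exact hxy
  · exact h hxy
  · exact h hxy
  · exact hxy

/-- **[W-FACE]** Let `S` be a clique with at most three vertices of a plane graph, which does not
separate the graph if it has three vertices. Then the graph with a new vertex joined to `S` has no
`K_{3,3}` minor. -/
theorem face [Finite V] (hc : G.Connected) (hP : ∃ σ : Equiv.Perm G.Dart, PlaneMap G σ)
    {S : Set V} (hcard : S.ncard ≤ 3) (hcl : ∀ u ∈ S, ∀ v ∈ S, u ≠ v → G.Adj u v)
    (hS : S.ncard = 3 → (G.induce Sᶜ).Preconnected) : ¬ IsMinor K33 (capG G S) := by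
  obtain ⟨σ, hσ⟩ := hP
  obtain ⟨v⟩ := hc.nonempty
  obtain ⟨d, hd⟩ := clique_face hc hσ hcard hcl hS
  set T : Set V := S ∪ {d.fst} with hT
  have hTne : T.Nonempty := ⟨d.fst, by simp [hT]⟩
  have hTf : T ⊆ onFace σ d := by
    rintro x (hx | hx)
    · exact hd hx
    · rw [Set.mem_singleton_iff] at hx
      subst hx
      exact ⟨d, Equiv.Perm.SameCycle.refl _ _, rfl⟩
  intro hm
  have hm' : IsMinor K33 (capG G T) := isMinor_mono' (capG_mono Set.subset_union_left) hm
  exact H427.pk _ (capG G T) (H141.capG_conn hc hTne)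
    (R2.H582.rowCap V G σ d T hc hσ hTne hTf) hm'

/-- the same for a root triple `R` (not necessarily injective) -/
theorem face_range [Finite V] (hc : G.Connected) (hP : ∃ σ : Equiv.Perm G.Dart, PlaneMap G σ)
    (R : Fin 3 → V) (hR : ∀ i j, R i ≠ R j → G.Adj (R i) (R j))
    (hS : Function.Injective R → (G.induce (Set.range R)ᶜ).Preconnected) :
    ¬ IsMinor K33 (capG G (Set.range R)) := by
  refine face hc hP ?_ ?_ ?_
  · have h1 := Set.ncard_image_le (f := R) (s := Set.univ) (Set.toFinite _)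
    rw [Set.image_univ, Set.ncard_univ] at h1
    simpa using h1
  · rintro _ ⟨i, rfl⟩ _ ⟨j, rfl⟩ hij
    exact hR i j hij
  · intro h
    refine hS ?_
    have h1 : (Set.range R).ncard = Nat.card (Fin 3) := by rw [h]; simp
    rw [← Set.image_univ] at h1
    have h2 := Set.injOn_of_ncard_image_eq (f := R) (s := Set.univ)
      (by rw [h1, Set.ncard_univ]) (Set.toFinite _)
    exact Set.injOn_univ.1 h2

end Vale.Agent.P235.K5.H830
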